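import Vale.Agent.P237.Quant.TailData.N22.tailN22P3Part0
import Vale.Agent.P237.Quant.TailData.N22.tailN22P3Part1
import Vale.Agent.P237.Quant.TailData.N22.tailN22P3Part2
import Vale.Agent.P237.Quant.TailData.N22.tailN22P3Part3

/-!
Tail calibration tailN22P3 in dimension 22. The check. Generated data, checked by the kernel.
-/

set_option maxRecDepth 100000
set_option linter.all false

namespace Vale.Agent.P237.Quant.TailData

open TailCert


/-- The calibration. -/
noncomputable def tailN22P3 : Cfg :=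
  tailN22P3Base.withIvals (List.flatten [tailN22P3L0, tailN22P3L1, tailN22P3L2, tailN22P3L3, tailN22P3L4, tailN22P3L5, tailN22P3L6, tailN22P3L7, tailN22P3L8, tailN22P3L9, tailN22P3L10, tailN22P3L11, tailN22P3L12, tailN22P3L13])

theorem tailN22P3_parts : [tailN22P3L0, tailN22P3L1, tailN22P3L2, tailN22P3L3, tailN22P3L4, tailN22P3L5, tailN22P3L6, tailN22P3L7, tailN22P3L8, tailN22P3L9, tailN22P3L10, tailN22P3L11, tailN22P3L12, tailN22P3L13].Forall fun l => tailN22P3Base.partUsed tailN22P3Used l = true := by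
  simp only [List.forall_cons, List.Forall]
  exact ⟨tailN22P3L0_ok, tailN22P3L1_ok, tailN22P3L2_ok, tailN22P3L3_ok, tailN22P3L4_ok, tailN22P3L5_ok, tailN22P3L6_ok, tailN22P3L7_ok, tailN22P3L8_ok, tailN22P3L9_ok, tailN22P3L10_ok, tailN22P3L11_ok, tailN22P3L12_ok, tailN22P3L13_ok⟩

theorem tailN22P3_check : tailN22P3.check = true :=
  Cfg.check_of_parts (by decide +kernel) tailN22P3_parts

end Vale.Agent.P237.Quant.TailData
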