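import Vale.Agent.P237.Quant.TailPartsLink
import Vale.Agent.P237.Quant.RowTables
import Vale.Agent.P237.Quant.EnvelopeTableData.N16
import Vale.Agent.P237.Quant.TailData.N22.tailN22P0
import Vale.Agent.P237.Quant.TailData.N22.tailN22P1
import Vale.Agent.P237.Quant.TailData.N22.tailN22P2
import Vale.Agent.P237.Quant.TailData.N22.tailN22P3
import Vale.Agent.P237.Quant.TailData.N22.tailN22N0
import Vale.Agent.P237.Quant.TailData.N22.tailN22N1

/-!
The tail inequalities of the rows of both sides in dimension 22. Generated.
-/

namespace Vale.Agent.P237.Quant

open TailCert TailData

/-- The tail inequalities of `negRow14` in dimension 22. -/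
theorem negRow14_tailAt22 : negRow14.TailAt 21 := by
  intro P hP
  simp only [negRow14, binsOf, List.mem_cons, List.not_mem_nil, or_false] at hP
  rcases hP with rfl | rfl
  · exact tailBin_negParts tailN22N0_check tailN22N0_parts envTable22_check (by decide +kernel)
  · exact tailBin_negParts tailN22N1_check tailN22N1_parts envTable22_check (by decide +kernel)

/-- The tail inequalities of `posRow20` in dimension 22. -/
theorem posRow20_tailAt22 : posRow20.TailAt 21 := by
  intro P hP
  simp only [posRow20, posRowA, posCuts14, posCuts16, binsOf, List.mem_cons, List.not_mem_nil, or_false] at hP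
  rcases hP with rfl | rfl | rfl | rfl
  · exact tailBin_posParts tailN22P0_check tailN22P0_parts envTable22_check (by decide +kernel)
  · exact tailBin_posParts tailN22P1_check tailN22P1_parts envTable22_check (by decide +kernel)
  · exact tailBin_posParts tailN22P2_check tailN22P2_parts envTable22_check (by decide +kernel)
  · exact tailBin_posParts tailN22P3_check tailN22P3_parts envTable22_check (by decide +kernel)

end Vale.Agent.P237.Quant
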